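import Mathlib

/-!
P022, real quadratic fields, the case of even weight characters: odd polynomials `R` with
dyadic coefficients and `R (u (1 + 4 b)) = χ₄ u + 2 ^ n * s`.
-/

open Polynomial

namespace Vale.Agent.P022.H742

/-- the step `(3 x - x ^ 3) / 2` -/
noncomputable def stp (R : ℚ[X]) : ℚ[X] := C (3 / 2) * R - C (1 / 2) * R ^ 3

/-- the iterated step, starting at `X` -/
noncomputable def Rn : ℕ → ℚ[X]
  | 0 => X
  | n + 1 => stp (Rn n)

/-- the value of the character mod 4 -/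
def chi (u : ℤ) : ℤ := ZMod.χ₄ u

theorem chi_sq {u : ℤ} (hu : Odd u) : chi u ^ 2 = 1 := by
  have h := ZMod.χ₄_int_eq_if_mod_four u
  have h2 : u % 2 = 1 := Int.odd_iff.1 hu
  unfold chi
  rw [h]
  split_ifs <;> omega

theorem chi_base {u : ℤ} (hu : Odd u) : ∃ t : ℤ, u = chi u * (1 + 4 * t) := by
  have h := ZMod.χ₄_int_eq_if_mod_four u
  have h2 : u % 2 = 1 := Int.odd_iff.1 hu
  unfold chi
  rw [h]
  split_ifs with h3 h4
  · omega
  · exact ⟨u / 4, by omega⟩
  · exact ⟨-(u / 4) - 1, by omega⟩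

/-- odd powers only -/
def OddP (R : ℚ[X]) : Prop := R.comp (-X) = -R

theorem oddP_Rn (n : ℕ) : OddP (Rn n) := by
  induction n with
  | zero => simp [OddP, Rn]
  | succ n ih =>
    unfold OddP at ih ⊢
    simp only [Rn, stp, sub_comp, mul_comp, C_comp, pow_comp, ih]
    ring

theorem coeff_of_oddP {R : ℚ[X]} (h : OddP R) {k : ℕ} (hk : Even k) : R.coeff k = 0 := by
  unfold OddP at h
  have h1 := congrArg (fun p => coeff p k) h
  have h2 : (R.comp (-X)).coeff k = (-1) ^ k * R.coeff k := by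
    have h3 : R.comp (-X) = R.comp (C (-1) * X) := by simp
    rw [h3, comp_C_mul_X_coeff]
    ring
  simp only [h2, coeff_neg, hk.neg_one_pow, one_mul] at h1
  linarith

/-- dyadic coefficients -/
theorem dyadic_Rn (n : ℕ) : ∃ (B : ℕ) (P : ℤ[X]), C ((2 : ℚ) ^ B) * Rn n = P.map (Int.castRingHom ℚ) := by
  induction n with
  | zero => exact ⟨0, X, by simp [Rn]⟩
  | succ n ih =>
    obtain ⟨B, P, h⟩ := ih
    refine ⟨3 * B + 1, C (3 * 2 ^ (2 * B)) * P - P ^ 3, ?_⟩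
    simp only [Rn, stp, Polynomial.map_sub, Polynomial.map_mul, Polynomial.map_pow, ← h, map_C]
    have e1 : (C ((2 : ℚ) ^ (3 * B + 1)) : ℚ[X]) = C (2 : ℚ) * C ((2 : ℚ) ^ B) ^ 3 := by
      rw [← C_pow, ← C_mul]
      congr 1
      ring
    have e2 : (C ((Int.castRingHom ℚ) (3 * 2 ^ (2 * B))) : ℚ[X]) = C (3 : ℚ) * C ((2 : ℚ) ^ B) ^ 2 := by
      rw [← C_pow, ← C_mul]
      congr 1
      simp
      ring
    have e3 : (C (3 / 2 : ℚ) : ℚ[X]) = C (3 : ℚ) * C (1 / 2 : ℚ) := by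
      rw [← C_mul]
      norm_num
    have e4 : (C (2 : ℚ) : ℚ[X]) * C (1 / 2 : ℚ) = 1 := by
      rw [← C_mul, ← C_1]
      norm_num
    rw [e1, e2, e3]
    linear_combination (C ((2 : ℚ) ^ B) ^ 3 * (C 3 * Rn n - Rn n ^ 3)) * e4

section

variable {A : Type*} [CommRing A] [Algebra ℚ A]

theorem aeval_stp (x : A) (R : ℚ[X]) :
    aeval x (stp R) * 2 = 3 * aeval x R - aeval x R ^ 3 := by
  have e1 : (algebraMap ℚ A) (3 / 2) * 2 = 3 := by
    have h2 : (2 : A) = algebraMap ℚ A 2 := (map_ofNat (algebraMap ℚ A) 2).symm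
    have h3 : (3 : A) = algebraMap ℚ A 3 := (map_ofNat (algebraMap ℚ A) 3).symm
    rw [h2, h3, ← map_mul]
    norm_num
  have e2 : (algebraMap ℚ A) (1 / 2) * 2 = 1 := by
    have : (2 : A) = algebraMap ℚ A 2 := (map_ofNat (algebraMap ℚ A) 2).symm
    rw [this, ← map_mul]
    norm_num
  simp only [stp, map_sub, map_mul, map_pow, aeval_C]
  linear_combination (aeval x R) * e1 - (aeval x R) ^ 3 * e2

theorem two_cancel {x y : A} (h : x * 2 = y * 2) : x = y := by
  have e2 : (2 : A) * (algebraMap ℚ A) (1 / 2) = 1 := by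
    have : (2 : A) = algebraMap ℚ A 2 := (map_ofNat (algebraMap ℚ A) 2).symm
    rw [this, ← map_mul]
    norm_num
  linear_combination (algebraMap ℚ A) (1 / 2) * h - (x - y) * e2

theorem aeval_Rn (S : Subring A) {b : A} (hb : b ∈ S) {u : ℤ} (hu : Odd u) (n : ℕ) :
    ∃ s ∈ S, aeval ((u : A) * (1 + 4 * b)) (Rn n) = (chi u : A) * (1 + 2 ^ (n + 2) * s) := by
  induction n with
  | zero =>
    obtain ⟨t, ht⟩ := chi_base hu
    refine ⟨t + b + 4 * t * b, ?_, ?_⟩
    · have h4 : (4 : A) ∈ S := by exact_mod_cast intCast_mem S 4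
      exact add_mem (add_mem (intCast_mem S t) hb) (mul_mem (mul_mem h4 (intCast_mem S t)) hb)
    · have h : (u : A) = chi u * (1 + 4 * t) := by exact_mod_cast congrArg (Int.cast : ℤ → A) ht
      simp only [Rn, aeval_X, h]
      ring
  | succ n ih =>
    obtain ⟨s, hs, h⟩ := ih
    have hc : ((chi u : ℤ) : A) ^ 2 = 1 := by exact_mod_cast congrArg (Int.cast : ℤ → A) (chi_sq hu)
    refine ⟨-3 * 2 ^ n * s ^ 2 - 2 ^ (2 * n + 2) * s ^ 3, ?_, ?_⟩
    · have h2 : ∀ z : ℤ, (z : A) ∈ S := fun z => intCast_mem S z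
      have e1 : (-3 * 2 ^ n : A) = ((-3 * 2 ^ n : ℤ) : A) := by push_cast; ring
      have e2 : (2 ^ (2 * n + 2) : A) = ((2 ^ (2 * n + 2) : ℤ) : A) := by push_cast; ring
      rw [e1, e2]
      exact sub_mem (mul_mem (h2 _) (pow_mem hs 2)) (mul_mem (h2 _) (pow_mem hs 3))
    · apply two_cancel
      rw [Rn, aeval_stp, h]
      have e3 : (chi u : A) ^ 3 = chi u := by linear_combination (chi u : A) * hc
      have e4 : ((chi u : A) * (1 + 2 ^ (n + 2) * s)) ^ 3 = chi u * (1 + 2 ^ (n + 2) * s) ^ 3 := by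
        rw [mul_pow, e3]
      rw [e4]
      ring

end

/-- **[PAR]** for every `n` there is an odd polynomial `R` with dyadic coefficients such that
`R (u (1 + 4 b)) = χ₄ u + 2 ^ n * s` with `s` in the subring generated by `b`, for every odd
integer `u` and every element `b` of a commutative `ℚ`-algebra. -/
theorem par (n : ℕ) : ∃ R : ℚ[X], (∀ k, Even k → R.coeff k = 0) ∧
    (∃ (B : ℕ) (P : ℤ[X]), C ((2 : ℚ) ^ B) * R = P.map (Int.castRingHom ℚ)) ∧
    ∀ (A : Type) [CommRing A] [Algebra ℚ A] (S : Subring A) (b : A) (_ : b ∈ S) (u : ℤ)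
      (_ : Odd u), ∃ s ∈ S, aeval ((u : A) * (1 + 4 * b)) R = ((ZMod.χ₄ u : ℤ) : A) + 2 ^ n * s := by
  refine ⟨Rn n, fun k hk => coeff_of_oddP (oddP_Rn n) hk, dyadic_Rn n, ?_⟩
  intro A _ _ S b hb u hu
  obtain ⟨s, hs, h⟩ := aeval_Rn S hb hu n
  refine ⟨(chi u : A) * (4 * s), ?_, ?_⟩
  · have h4 : (4 : A) ∈ S := by exact_mod_cast intCast_mem S 4
    exact mul_mem (intCast_mem S _) (mul_mem h4 hs)
  · rw [h]
    unfold chi
    ring

end Vale.Agent.P022.H742
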